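import Mathlib
import Vale.Agent.P039.Bn.Defs

/-! The face boundary inequality: `#K + #X ≤ #E(X) + 1` for a connected set `X` of vertices of the
cubic map and a set `K` of faces whose boundary edges lie in `X`, `K` not everything. -/

set_option linter.all false

namespace Vale.Agent.P039.Bt.H454

open Vale.Agent.P039.Bn Finset

variable {B W V : Type}

theorem sum3 (j : Fin 3) (g : Fin 3 → ℚ) : ∑ i, g i = g j + g (j + 1) + g (j + 2) := by
  rw [Fin.sum_univ_three]
  fin_cases j
  · rfl
  · show g 0 + g 1 + g 2 = g 1 + g 2 + g 0; ring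
  · show g 0 + g 1 + g 2 = g 2 + g 0 + g 1; ring

theorem sum_shift1 (g : Fin 3 → ℚ) : ∑ i, g (i + 1) = ∑ i, g i := by
  rw [Fin.sum_univ_three, Fin.sum_univ_three]
  show g 1 + g 2 + g 0 = g 0 + g 1 + g 2; ring

theorem sum_shift2 (g : Fin 3 → ℚ) : ∑ i, g (i + 2) = ∑ i, g i := by
  rw [Fin.sum_univ_three, Fin.sum_univ_three]
  show g 2 + g 0 + g 1 = g 0 + g 1 + g 2; ring

section

variable (M : PMap B W V) [Fintype B] [Fintype W] [Fintype V]

/-- face boundaries are orthogonal to differences of vertex functions -/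
theorem orth (n : V → ℚ) (al : B → ℚ) (ga : W → ℚ) :
    ∑ b, ∑ i, (n (M.c (i + 1) b) - n (M.c (i + 2) b)) * (al b - ga (M.e i b)) = 0 := by
  have h1 : ∀ b, ∑ i, (n (M.c (i + 1) b) - n (M.c (i + 2) b)) * al b = 0 := by
    intro b
    rw [← Finset.sum_mul, Finset.sum_sub_distrib, sum_shift1 (fun i => n (M.c i b)),
      sum_shift2 (fun i => n (M.c i b)), sub_self, zero_mul]
  have h2 : ∑ b, ∑ i, (n (M.c (i + 1) b) - n (M.c (i + 2) b)) * ga (M.e i b) = 0 := by
    rw [Finset.sum_comm]
    have h3 : ∀ i : Fin 3, ∑ b, (n (M.c (i + 1) b) - n (M.c (i + 2) b)) * ga (M.e i b) =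
        ∑ w, (n (M.cw (i + 1) w) - n (M.cw (i + 2) w)) * ga w := by
      intro i
      refine Fintype.sum_equiv (M.e i) _ _ fun b => ?_
      rw [M.cw_e (i + 1) i (fne1 i).symm, M.cw_e (i + 2) i (fne2 i).symm]
    rw [Finset.sum_congr rfl fun i _ => h3 i, Finset.sum_comm]
    refine Finset.sum_eq_zero fun w _ => ?_
    rw [← Finset.sum_mul, Finset.sum_sub_distrib, sum_shift1 (fun i => n (M.cw i w)),
      sum_shift2 (fun i => n (M.cw i w)), sub_self, zero_mul]
  have h4 : ∀ b, ∑ i, (n (M.c (i + 1) b) - n (M.c (i + 2) b)) * (al b - ga (M.e i b)) =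
      (∑ i, (n (M.c (i + 1) b) - n (M.c (i + 2) b)) * al b) -
        ∑ i, (n (M.c (i + 1) b) - n (M.c (i + 2) b)) * ga (M.e i b) := by
    intro b
    rw [← Finset.sum_sub_distrib]
    exact Finset.sum_congr rfl fun i _ => mul_sub _ _ _
  rw [Finset.sum_congr rfl fun b _ => h4 b, Finset.sum_sub_distrib, h2,
    Finset.sum_eq_zero fun b _ => h1 b, sub_zero]

/-- a function on the faces which is constant around every black vertex is constant -/
theorem const_of_black (hc : M.Conn) (n : V → ℚ) (h : ∀ b j j', n (M.c j b) = n (M.c j' b)) :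
    ∀ v v', n v = n v' := by
  have h1 : ∀ b b', n (M.c 0 b) = n (M.c 0 b') := by
    intro b b'
    have := hc b b'
    induction this with
    | rel x y hxy =>
      obtain ⟨j, hj⟩ := hxy
      rw [h x 0 j, h y 0 j, hj]
    | refl x => rfl
    | symm x y _ ih => exact ih.symm
    | trans x y z _ _ ih1 ih2 => exact ih1.trans ih2
  intro v v'
  obtain ⟨j, b, rfl⟩ := M.surj v
  obtain ⟨j', b', rfl⟩ := M.surj v'
  rw [h b j 0, h b' j' 0, h1]

theorem FB [DecidableEq B] [DecidableEq W] [DecidableEq V] (hc : M.Conn)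
    (A : Finset B) (C : Finset W)
    (hne : A.Nonempty ∨ C.Nonempty)
    (hconn : ∀ (al : B → ℚ) (ga : W → ℚ), (∀ b i, b ∈ A → M.e i b ∈ C → al b = ga (M.e i b)) →
      ∃ t, (∀ b ∈ A, al b = t) ∧ ∀ w ∈ C, ga w = t)
    (K : Finset V) (hK : K ≠ univ)
    (hKE : ∀ b i j, j ≠ i → M.c j b ∈ K → b ∈ A ∧ M.e i b ∈ C) :
    K.card + (A.card + C.card) ≤
      (univ.filter fun q : B × Fin 3 => q.1 ∈ A ∧ M.e q.2 q.1 ∈ C).card + 1 := by
  classical
  -- the set of vertices as a finset of `B ⊕ W`
  let X : Finset (B ⊕ W) := A.disjSum C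
  have hXne : X.Nonempty := by
    rcases hne with ⟨b, hb⟩ | ⟨w, hw⟩
    · exact ⟨Sum.inl b, Finset.inl_mem_disjSum.2 hb⟩
    · exact ⟨Sum.inr w, Finset.inr_mem_disjSum.2 hw⟩
  obtain ⟨x0, hx0⟩ := hXne
  let E : Finset (B × Fin 3) := univ.filter fun q : B × Fin 3 => q.1 ∈ A ∧ M.e q.2 q.1 ∈ C
  let X' : Finset (B ⊕ W) := X.erase x0
  -- extension by zero
  let eK : ({v // v ∈ K} → ℚ) →ₗ[ℚ] (V → ℚ) := Function.ExtendByZero.linearMap ℚ Subtype.val
  let eX : ({x // x ∈ X'} → ℚ) →ₗ[ℚ] (B ⊕ W → ℚ) := Function.ExtendByZero.linearMap ℚ Subtype.val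
  have eK_not : ∀ n v, v ∉ K → eK n v = 0 := by
    intro n v hv
    show Function.extend Subtype.val n 0 v = 0
    rw [Function.extend_apply']
    · rfl
    · rintro ⟨a, rfl⟩; exact hv a.2
  have eK_val : ∀ n (v : {v // v ∈ K}), eK n v.1 = n v := by
    intro n v
    exact Subtype.val_injective.extend_apply _ _ _
  have eX_not : ∀ n v, v ∉ X' → eX n v = 0 := by
    intro n v hv
    show Function.extend Subtype.val n 0 v = 0
    rw [Function.extend_apply']
    · rfl
    · rintro ⟨a, rfl⟩; exact hv a.2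
  have eX_val : ∀ n (v : {v // v ∈ X'}), eX n v.1 = n v := by
    intro n v
    exact Subtype.val_injective.extend_apply _ _ _
  let L : (({v // v ∈ K} → ℚ) × ({x // x ∈ X'} → ℚ)) →ₗ[ℚ] ({q // q ∈ E} → ℚ) :=
    { toFun := fun p q => (eK p.1 (M.c (q.1.2 + 1) q.1.1) - eK p.1 (M.c (q.1.2 + 2) q.1.1)) +
        (eX p.2 (Sum.inl q.1.1) - eX p.2 (Sum.inr (M.e q.1.2 q.1.1)))
      map_add' := by
        intro p p'
        ext q
        simp only [Prod.fst_add, Prod.snd_add, map_add, Pi.add_apply]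
        ring
      map_smul' := by
        intro r p
        ext q
        simp only [Prod.smul_fst, Prod.smul_snd, map_smul, Pi.smul_apply, smul_eq_mul,
          RingHom.id_apply]
        ring }
  have hL : Function.Injective L := by
    rw [← LinearMap.ker_eq_bot, LinearMap.ker_eq_bot']
    rintro ⟨n, f⟩ h0
    have h0' : ∀ b i, (b, i) ∈ E → (eK n (M.c (i + 1) b) - eK n (M.c (i + 2) b)) +
        (eX f (Sum.inl b) - eX f (Sum.inr (M.e i b))) = 0 := by
      intro b i hbi
      exact congrFun h0 ⟨(b, i), hbi⟩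
    have hoff : ∀ b i, (b, i) ∉ E → eK n (M.c (i + 1) b) - eK n (M.c (i + 2) b) = 0 := by
      intro b i hbi
      have h1 : ∀ j, j ≠ i → M.c j b ∉ K := fun j hj hh =>
        hbi (mem_filter.2 ⟨mem_univ _, hKE b i j hj hh⟩)
      rw [eK_not _ _ (h1 _ (fne1 i)), eK_not _ _ (h1 _ (fne2 i)), sub_zero]
    have horth := orth M (eK n) (fun b => eX f (Sum.inl b)) (fun w => eX f (Sum.inr w))
    have hsq : ∑ b, ∑ i, (eK n (M.c (i + 1) b) - eK n (M.c (i + 2) b)) ^ 2 = 0 := by
      have : ∀ b i, (eK n (M.c (i + 1) b) - eK n (M.c (i + 2) b)) ^ 2 =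
          -((eK n (M.c (i + 1) b) - eK n (M.c (i + 2) b)) *
            (eX f (Sum.inl b) - eX f (Sum.inr (M.e i b)))) := by
        intro b i
        by_cases hbi : (b, i) ∈ E
        · have := h0' b i hbi
          have h2 : eX f (Sum.inl b) - eX f (Sum.inr (M.e i b)) =
            -(eK n (M.c (i + 1) b) - eK n (M.c (i + 2) b)) := by linarith
          rw [h2]; ring
        · rw [hoff b i hbi]; ring
      simp only [this, Finset.sum_neg_distrib]
      rw [horth, neg_zero]
    have hz : ∀ b i, eK n (M.c (i + 1) b) - eK n (M.c (i + 2) b) = 0 := by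
      intro b i
      have h1 := (Finset.sum_eq_zero_iff_of_nonneg
        (fun b _ => Finset.sum_nonneg fun i _ => sq_nonneg _)).1 hsq b (mem_univ b)
      have h2 := (Finset.sum_eq_zero_iff_of_nonneg (fun i _ => sq_nonneg _)).1 h1 i (mem_univ i)
      exact pow_eq_zero_iff (two_ne_zero) |>.1 h2
    have hcst : ∀ b j j', eK n (M.c j b) = eK n (M.c j' b) := by
      intro b
      have h2 : ∀ j, eK n (M.c (j + 1) b) = eK n (M.c j b) := by
        intro j
        have := hz b (j + 2)
        rw [f21, f22] at this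
        linarith
      intro j j'
      rcases fcase j' j with rfl | rfl | rfl
      · rfl
      · exact (h2 j).symm
      · rw [← h2 j, ← h2 (j + 1), f11]
    have hall := const_of_black M hc (eK n) hcst
    obtain ⟨v0, hv0⟩ : ∃ v0, v0 ∉ K := by
      by_contra hcon
      push Not at hcon
      exact hK (Finset.eq_univ_iff_forall.2 hcon)
    have hn0 : n = 0 := by
      ext v
      rw [← eK_val n v, hall v.1 v0, eK_not n v0 hv0]
      rfl
    obtain ⟨t, ht1, ht2⟩ := hconn (fun b => eX f (Sum.inl b)) (fun w => eX f (Sum.inr w)) (by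
      intro b i hb hw
      have h1 := h0' b i (mem_filter.2 ⟨mem_univ _, hb, hw⟩)
      rw [hz b i] at h1
      show eX f (Sum.inl b) = eX f (Sum.inr (M.e i b))
      linarith)
    have ht : ∀ x ∈ X, eX f x = t := by
      intro x hx
      rcases x with b | w
      · exact ht1 b (Finset.inl_mem_disjSum.1 hx)
      · exact ht2 w (Finset.inr_mem_disjSum.1 hx)
    have ht0 : t = 0 := by
      rw [← ht x0 hx0, eX_not f x0 (Finset.notMem_erase _ _)]
    have hf0 : f = 0 := by
      ext x
      rw [← eX_val f x, ht x.1 (Finset.mem_of_mem_erase x.2), ht0]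
      rfl
    rw [hn0, hf0]
    rfl
  have hdim := LinearMap.finrank_le_finrank_of_injective hL
  rw [Module.finrank_prod, Module.finrank_fintype_fun_eq_card, Module.finrank_fintype_fun_eq_card,
    Module.finrank_fintype_fun_eq_card, Fintype.card_coe, Fintype.card_coe, Fintype.card_coe,
    Finset.card_erase_of_mem hx0, Finset.card_disjSum] at hdim
  have hpos : 0 < A.card + C.card := by
    rw [← Finset.card_disjSum]
    exact Finset.card_pos.2 ⟨x0, hx0⟩
  show K.card + (A.card + C.card) ≤ E.card + 1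
  omega

end

end Vale.Agent.P039.Bt.H454
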