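import Mathlib
import Vale.Agent.P039.Bt.H454.FB

/-! STEP 1: a good matching of the faces not at `b0` with the blacks other than `b0` gives
Hamiltonian cycles through `b0` which avoid any prescribed edge at `b0`. -/

set_option linter.all false

namespace Vale.Agent.P039.Bt.H454

open Vale.Agent.P039.Bn Finset

variable {B W V : Type}

section a

variable (M : PMap B W V) [Fintype B] [Fintype W] [Fintype V]

/-- the boundary of a function on the whites is a cycle at the faces -/
theorem orth2 (x : W → ℚ) (n : V → ℚ) :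
    ∑ b, ∑ j, (x (M.e (j + 1) b) - x (M.e (j + 2) b)) * n (M.c j b) = 0 := by
  have h1 : ∑ b, ∑ j, x (M.e (j + 1) b) * n (M.c j b) = ∑ w, ∑ j, x w * n (M.cw j w) := by
    rw [Finset.sum_comm, Finset.sum_comm (s := (univ : Finset W))]
    refine Finset.sum_congr rfl fun j _ => ?_
    refine Fintype.sum_equiv (M.e (j + 1)) _ _ fun b => ?_
    rw [M.cw_e1]
  have h2 : ∑ b, ∑ j, x (M.e (j + 2) b) * n (M.c j b) = ∑ w, ∑ j, x w * n (M.cw j w) := by
    rw [Finset.sum_comm, Finset.sum_comm (s := (univ : Finset W))]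
    refine Finset.sum_congr rfl fun j _ => ?_
    refine Fintype.sum_equiv (M.e (j + 2)) _ _ fun b => ?_
    rw [M.cw_e2]
  simp only [sub_mul, Finset.sum_sub_distrib]
  rw [h1, h2, sub_self]

/-- (a): a function on the whites which is constant along the edges of `Γ` is constant. -/
theorem gamma_conn [DecidableEq B] [DecidableEq V] (hS : M.Sph) (b0 : B) (f : B → Fin 3)
    (hinj : ∀ b b', b ≠ b0 → b' ≠ b0 → M.c (f b) b = M.c (f b') b' → b = b')
    (havoid : ∀ b, b ≠ b0 → ∀ j, M.c (f b) b ≠ M.c j b0)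
    (hgood : ∀ U : Finset V, (∀ v ∈ U, ∀ j, M.c j b0 ≠ v) →
      (∀ b, b ≠ b0 → (M.c (f b + 1) b ∈ U ↔ M.c (f b + 2) b ∈ U)) → U = ∅)
    (x : W → ℚ) (hx : ∀ b, b ≠ b0 → x (M.e (f b + 1) b) = x (M.e (f b + 2) b)) :
    ∀ w w', x w = x w' := by
  classical
  -- the faces not at `b0`
  let P : V → Prop := fun v => ∀ j, M.c j b0 ≠ v
  let eV : ({v // P v} → ℚ) →ₗ[ℚ] (V → ℚ) := Function.ExtendByZero.linearMap ℚ Subtype.val
  have eV_not : ∀ n v, ¬ P v → eV n v = 0 := by
    intro n v hv
    show Function.extend Subtype.val n 0 v = 0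
    rw [Function.extend_apply']
    · rfl
    · rintro ⟨a, rfl⟩; exact hv a.2
  have eV_val : ∀ n (v : {v // P v}), eV n v.1 = n v := by
    intro n v
    exact Subtype.val_injective.extend_apply _ _ _
  let A : ({v // P v} → ℚ) →ₗ[ℚ] ({b // b ≠ b0} → ℚ) :=
    { toFun := fun n b => eV n (M.c (f b.1 + 1) b.1) - eV n (M.c (f b.1 + 2) b.1)
      map_add' := by
        intro p p'
        ext q
        simp only [map_add, Pi.add_apply]
        ring
      map_smul' := by
        intro r p
        ext q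
        simp only [map_smul, Pi.smul_apply, smul_eq_mul, RingHom.id_apply]
        ring }
  have hAinj : Function.Injective A := by
    rw [← LinearMap.ker_eq_bot, LinearMap.ker_eq_bot']
    intro n hn
    have h1 : ∀ b, b ≠ b0 → eV n (M.c (f b + 1) b) = eV n (M.c (f b + 2) b) := by
      intro b hb
      exact sub_eq_zero.1 (congrFun hn ⟨b, hb⟩)
    have h2 := hgood (univ.filter fun v => eV n v ≠ 0) (by
      intro v hv
      by_contra hcon
      exact (mem_filter.1 hv).2 (eV_not n v hcon)) (by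
      intro b hb
      simp only [mem_filter, mem_univ, true_and]
      rw [h1 b hb])
    ext v
    rw [← eV_val n v]
    by_contra hcon
    have : v.1 ∈ (univ.filter fun v => eV n v ≠ 0) := mem_filter.2 ⟨mem_univ _, hcon⟩
    rw [h2] at this
    exact absurd this (Finset.notMem_empty _)
  have hcard : Fintype.card {v // P v} = Fintype.card {b // b ≠ b0} := by
    have h1 : Fintype.card {b // b ≠ b0} = Fintype.card B - 1 := by
      rw [Fintype.card_subtype_compl, Fintype.card_subtype_eq]
    have h2 : Fintype.card {v // ¬ P v} = 3 := by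
      have h3 : (univ.filter fun v => ¬ P v) = univ.image fun j => M.c j b0 := by
        ext v
        simp only [P, mem_filter, mem_univ, true_and, mem_image]
        push Not
        rfl
      rw [Fintype.card_subtype, h3, Finset.card_image_of_injective]
      · simp
      · intro j j' h
        exact M.cls _ _ _ _ h
    have h3 := Fintype.card_subtype_compl P
    have h4 : Fintype.card {v // P v} ≤ Fintype.card V := Fintype.card_subtype_le _
    have h5 := hS.card
    have h6 : 0 < Fintype.card B := Fintype.card_pos_iff.2 ⟨b0⟩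
    omega
  have hAsurj : Function.Surjective A := by
    have h1 : Module.finrank ℚ ({v // P v} → ℚ) = Module.finrank ℚ ({b // b ≠ b0} → ℚ) := by
      rw [Module.finrank_fintype_fun_eq_card, Module.finrank_fintype_fun_eq_card, hcard]
    exact (LinearMap.injective_iff_surjective_of_finrank_eq_finrank h1).1 hAinj
  -- the vector `y`
  let y : {b // b ≠ b0} → ℚ := fun b => x (M.e (f b.1 + 2) b.1) - x (M.e (f b.1) b.1)
  obtain ⟨n, hn⟩ := hAsurj y
  have hb0 : ∀ j, eV n (M.c j b0) = 0 := fun j => eV_not n _ fun h => h j rfl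
  have hterm : ∀ b, (hb : b ≠ b0) →
      ∑ j, (x (M.e (j + 1) b) - x (M.e (j + 2) b)) * eV n (M.c j b) = y ⟨b, hb⟩ ^ 2 := by
    intro b hb
    rw [sum3 (f b), f11, f12, f21, f22, hx b hb, sub_self, zero_mul, zero_add]
    have h1 : eV n (M.c (f b + 1) b) - eV n (M.c (f b + 2) b) =
        x (M.e (f b + 2) b) - x (M.e (f b) b) := congrFun hn ⟨b, hb⟩
    show _ = (x (M.e (f b + 2) b) - x (M.e (f b) b)) ^ 2
    have h2 : x (M.e (f b) b) - x (M.e (f b + 2) b) =
      -(x (M.e (f b + 2) b) - x (M.e (f b) b)) := by ring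
    rw [h2]
    linear_combination (x (M.e (f b + 2) b) - x (M.e (f b) b)) * h1
  have hterm0 : ∑ j, (x (M.e (j + 1) b0) - x (M.e (j + 2) b0)) * eV n (M.c j b0) = 0 :=
    Finset.sum_eq_zero fun j _ => by rw [hb0, mul_zero]
  have horth := orth2 M x (eV n)
  have hy : ∀ b (hb : b ≠ b0), x (M.e (f b + 2) b) = x (M.e (f b) b) := by
    intro b hb
    have h1 : ∀ b, 0 ≤ ∑ j, (x (M.e (j + 1) b) - x (M.e (j + 2) b)) * eV n (M.c j b) := by
      intro b
      by_cases hb : b = b0
      · rw [hb, hterm0]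
      · rw [hterm b hb]; exact sq_nonneg _
    have h2 := (Finset.sum_eq_zero_iff_of_nonneg (fun b _ => h1 b)).1 horth b (mem_univ b)
    rw [hterm b hb] at h2
    have h3 : y ⟨b, hb⟩ = 0 := pow_eq_zero_iff (two_ne_zero) |>.1 h2
    exact sub_eq_zero.1 h3
  have hall1 : ∀ b, b ≠ b0 → ∀ j j', x (M.e j b) = x (M.e j' b) := by
    intro b hb
    have h1 : ∀ j, x (M.e j b) = x (M.e (f b) b) := by
      intro j
      rcases fcase j (f b) with h | h | h
      · rw [h]
      · rw [h, hx b hb, hy b hb]
      · rw [h, hy b hb]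
    intro j j'
    rw [h1 j, h1 j']
  have hall0 : ∀ j, x (M.e (j + 1) b0) = x (M.e (j + 2) b0) := by
    intro j
    have h1 := orth2 M x (fun v => if v = M.c j b0 then 1 else 0)
    rw [Finset.sum_eq_single b0] at h1
    · rw [Finset.sum_eq_single j] at h1
      · rw [if_pos rfl, mul_one] at h1
        exact sub_eq_zero.1 h1
      · intro j' _ hj'
        rw [if_neg, mul_zero]
        intro h
        exact hj' (M.cls _ _ _ _ h)
      · intro h; exact absurd (mem_univ _) h
    · intro b _ hb
      refine Finset.sum_eq_zero fun j' _ => ?_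
      rw [hall1 b hb (j' + 1) (j' + 2), sub_self, zero_mul]
    · intro h; exact absurd (mem_univ _) h
  have hall : ∀ b j j', x (M.e j b) = x (M.e j' b) := by
    intro b
    by_cases hb : b = b0
    · rw [hb]
      have h1 : ∀ j, x (M.e (j + 1) b0) = x (M.e j b0) := by
        intro j
        have h2 := hall0 (j + 2)
        rw [f21, f22] at h2
        exact h2.symm
      intro j j'
      rcases fcase j' j with rfl | rfl | rfl
      · rfl
      · exact (h1 j).symm
      · rw [← h1 j, ← h1 (j + 1), f11]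
    · exact hall1 b hb
  -- connectivity
  have hcw : ∀ b b' j, M.c j b = M.c j b' → x (M.e (j + 1) b) = x (M.e (j + 1) b') := by
    intro b b' j h
    have := M.exact j b b' h
    clear h
    induction this with
    | rel a c hac => rw [hac, hall a (j + 2) (j + 1)]
    | refl a => rfl
    | symm a c _ ih => exact ih.symm
    | trans a c d _ _ ih1 ih2 => exact ih1.trans ih2
  have hbb : ∀ b b', x (M.e 0 b) = x (M.e 0 b') := by
    intro b b'
    have := hS.conn b b'
    induction this with
    | rel a c hac =>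
      obtain ⟨j, hj⟩ := hac
      rw [hall a 0 (j + 1), hall c 0 (j + 1), hcw a c j hj]
    | refl a => rfl
    | symm a c _ ih => exact ih.symm
    | trans a c d _ _ ih1 ih2 => exact ih1.trans ih2
  intro w w'
  have h1 := hbb ((M.e 0).symm w) ((M.e 0).symm w')
  rwa [Equiv.apply_symm_apply, Equiv.apply_symm_apply] at h1

/-- (b): the perfect matching. -/
theorem exists_pm [DecidableEq B] [DecidableEq W] [DecidableEq V] (hS : M.Sph) (b0 : B)
    (f : B → Fin 3)
    (hinj : ∀ b b', b ≠ b0 → b' ≠ b0 → M.c (f b) b = M.c (f b') b' → b = b')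
    (havoid : ∀ b, b ≠ b0 → ∀ j, M.c (f b) b ≠ M.c j b0)
    (hgood : ∀ U : Finset V, (∀ v ∈ U, ∀ j, M.c j b0 ≠ v) →
      (∀ b, b ≠ b0 → (M.c (f b + 1) b ∈ U ↔ M.c (f b + 2) b ∈ U)) → U = ∅) (c0 : Fin 3) :
    ∃ m : B → Fin 3, m b0 = c0 ∧ (∀ b, b ≠ b0 → m b ≠ f b) ∧
      Function.Bijective (fun b => M.e (m b) b) := by
  classical
  let Q : Matrix B B ℚ := fun b b' =>
    if b = b0 then (if M.e c0 b0 = M.e 0 b' then 1 else 0) else
      (if M.e (f b + 1) b = M.e 0 b' then 1 else 0) - (if M.e (f b + 2) b = M.e 0 b' then 1 else 0)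
  have hdet : Q.det ≠ 0 := by
    intro h0
    obtain ⟨v, hv, hQv⟩ := Matrix.exists_mulVec_eq_zero_iff.2 h0
    apply hv
    let x : W → ℚ := fun w => v ((M.e 0).symm w)
    have hs : ∀ w : W, ∑ b', (if w = M.e 0 b' then (1 : ℚ) else 0) * v b' = x w := by
      intro w
      rw [Finset.sum_eq_single ((M.e 0).symm w)]
      · rw [Equiv.apply_symm_apply, if_pos rfl, one_mul]
      · intro b' _ hb'
        rw [if_neg, zero_mul]
        intro h
        apply hb'
        rw [h, Equiv.symm_apply_apply]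
      · intro h; exact absurd (mem_univ _) h
    have h1 : ∀ b, b ≠ b0 → x (M.e (f b + 1) b) = x (M.e (f b + 2) b) := by
      intro b hb
      have h2 : ∑ b', Q b b' * v b' = 0 := congrFun hQv b
      simp only [Q, if_neg hb, sub_mul, Finset.sum_sub_distrib] at h2
      rw [hs, hs] at h2
      exact sub_eq_zero.1 h2
    have h2 := gamma_conn M hS b0 f hinj havoid hgood x h1
    have h3 : x (M.e c0 b0) = 0 := by
      have h4 : ∑ b', Q b0 b' * v b' = 0 := congrFun hQv b0
      simp only [Q, if_true] at h4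
      rwa [hs] at h4
    ext b
    have h4 := h2 (M.e 0 b) (M.e c0 b0)
    rw [h3] at h4
    have h5 : x (M.e 0 b) = v b := by
      show v ((M.e 0).symm (M.e 0 b)) = v b
      rw [Equiv.symm_apply_apply]
    rw [← h5, h4]
    rfl
  rw [Matrix.det_apply] at hdet
  obtain ⟨s, -, hs⟩ := Finset.exists_ne_zero_of_sum_ne_zero hdet
  have hs' : ∀ b, Q (s b) b ≠ 0 := by
    intro b hb
    apply hs
    have h9 : ∏ i, Q (s i) i = 0 := Finset.prod_eq_zero (f := fun i => Q (s i) i) (mem_univ b) hb
    show Equiv.Perm.sign s • ∏ i, Q (s i) i = 0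
    exact (congrArg (fun t => Equiv.Perm.sign s • t) h9).trans (smul_zero _)
  have hex : ∀ b, ∃ j, M.e j b = M.e 0 (s.symm b) ∧ (b = b0 → j = c0) ∧ (b ≠ b0 → j ≠ f b) := by
    intro b
    have h1 := hs' (s.symm b)
    rw [Equiv.apply_symm_apply] at h1
    by_cases hb : b = b0
    · subst hb
      simp only [Q, if_true] at h1
      refine ⟨c0, ?_, fun _ => rfl, fun h => absurd rfl h⟩
      by_contra hcon
      rw [if_neg hcon] at h1
      exact h1 rfl
    · simp only [Q, if_neg hb] at h1
      by_cases h2 : M.e (f b + 1) b = M.e 0 (s.symm b)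
      · exact ⟨f b + 1, h2, fun h => absurd h hb, fun _ => fne1 _⟩
      · by_cases h3 : M.e (f b + 2) b = M.e 0 (s.symm b)
        · exact ⟨f b + 2, h3, fun h => absurd h hb, fun _ => fne2 _⟩
        · rw [if_neg h2, if_neg h3, sub_zero] at h1
          exact absurd rfl h1
  choose m hm1 hm2 hm3 using hex
  refine ⟨m, hm2 b0 rfl, hm3, ?_⟩
  have : (fun b => M.e (m b) b) = fun b => M.e 0 (s.symm b) := funext hm1
  rw [this]
  exact (M.e 0).bijective.comp s.symm.bijective

end a

section c

variable (M : PMap B W V) [Fintype B] [Fintype W] [Fintype V]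

/-- face boundaries are orthogonal to differences of vertex functions, mod 2 -/
theorem orthZ (n : V → ZMod 2) (al : B → ZMod 2) (ga : W → ZMod 2) :
    ∑ b, ∑ i, (n (M.c (i + 1) b) + n (M.c (i + 2) b)) * (al b + ga (M.e i b)) = 0 := by
  have hs1 : ∀ g : Fin 3 → ZMod 2, ∑ i, (g (i + 1) + g (i + 2)) = 0 := by
    intro g
    rw [Fin.sum_univ_three]
    show g 1 + g 2 + (g 2 + g 0) + (g 0 + g 1) = 0
    have h2 : (2 : ZMod 2) = 0 := rfl
    linear_combination (g 0 + g 1 + g 2) * h2
  have h1 : ∀ b, ∑ i, (n (M.c (i + 1) b) + n (M.c (i + 2) b)) * al b = 0 := by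
    intro b
    rw [← Finset.sum_mul, hs1 (fun i => n (M.c i b)), zero_mul]
  have h2 : ∑ b, ∑ i, (n (M.c (i + 1) b) + n (M.c (i + 2) b)) * ga (M.e i b) = 0 := by
    rw [Finset.sum_comm]
    have h3 : ∀ i : Fin 3, ∑ b, (n (M.c (i + 1) b) + n (M.c (i + 2) b)) * ga (M.e i b) =
        ∑ w, (n (M.cw (i + 1) w) + n (M.cw (i + 2) w)) * ga w := by
      intro i
      refine Fintype.sum_equiv (M.e i) _ _ fun b => ?_
      rw [M.cw_e (i + 1) i (fne1 i).symm, M.cw_e (i + 2) i (fne2 i).symm]
    rw [Finset.sum_congr rfl fun i _ => h3 i, Finset.sum_comm]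
    refine Finset.sum_eq_zero fun w _ => ?_
    rw [← Finset.sum_mul, hs1 (fun i => n (M.cw i w)), zero_mul]
  simp only [mul_add, Finset.sum_add_distrib]
  rw [Finset.sum_eq_zero fun b _ => h1 b, h2, add_zero]

/-- the faces not at `b0` are the faces matched by `f` -/
theorem surj_of_inj [DecidableEq B] [DecidableEq V] (hS : M.Sph) (b0 : B) (f : B → Fin 3)
    (hinj : ∀ b b', b ≠ b0 → b' ≠ b0 → M.c (f b) b = M.c (f b') b' → b = b')
    (havoid : ∀ b, b ≠ b0 → ∀ j, M.c (f b) b ≠ M.c j b0) :
    ∀ v, (∀ j, M.c j b0 ≠ v) → ∃ b, b ≠ b0 ∧ M.c (f b) b = v := by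
  classical
  have h1 : ((univ.erase b0).image fun b => M.c (f b) b).card = Fintype.card B - 1 := by
    rw [Finset.card_image_of_injOn, Finset.card_erase_of_mem (mem_univ _), Finset.card_univ]
    intro b hb b' hb' h
    exact hinj b b' (Finset.ne_of_mem_erase hb) (Finset.ne_of_mem_erase hb') h
  have h2 : ((univ : Finset (Fin 3)).image fun j => M.c j b0).card = 3 := by
    rw [Finset.card_image_of_injective]
    · simp
    · intro j j' h
      exact M.cls _ _ _ _ h
  have h3 : Disjoint ((univ.erase b0).image fun b => M.c (f b) b)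
      ((univ : Finset (Fin 3)).image fun j => M.c j b0) := by
    rw [Finset.disjoint_left]
    intro v hv hv'
    obtain ⟨b, hb, rfl⟩ := mem_image.1 hv
    obtain ⟨j, -, hj⟩ := mem_image.1 hv'
    exact havoid b (Finset.ne_of_mem_erase hb) j hj.symm
  have h4 : ((univ.erase b0).image fun b => M.c (f b) b) ∪
      ((univ : Finset (Fin 3)).image fun j => M.c j b0) = univ := by
    apply Finset.eq_univ_of_card
    rw [Finset.card_union_of_disjoint h3, h1, h2, hS.card]
    have h6 : 0 < Fintype.card B := Fintype.card_pos_iff.2 ⟨b0⟩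
    omega
  intro v hv
  have h5 : v ∈ ((univ.erase b0).image fun b => M.c (f b) b) ∪
      ((univ : Finset (Fin 3)).image fun j => M.c j b0) := by rw [h4]; exact mem_univ _
  rcases mem_union.1 h5 with h | h
  · obtain ⟨b, hb, h⟩ := mem_image.1 h
    exact ⟨b, Finset.ne_of_mem_erase hb, h⟩
  · obtain ⟨j, -, hj⟩ := mem_image.1 h
    exact absurd hj (hv j)

theorem filter_prod_card [DecidableEq B] (p : B → Fin 3 → Prop) [∀ b i, Decidable (p b i)]
    [DecidablePred fun q : B × Fin 3 => p q.1 q.2] :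
    (univ.filter fun q : B × Fin 3 => p q.1 q.2).card = ∑ b, ∑ i, if p b i then 1 else 0 := by
  rw [Finset.card_filter, Fintype.sum_prod_type]
  refine Finset.sum_congr rfl fun b _ => Finset.sum_congr rfl fun i _ => ?_
  by_cases h : p b i
  · rw [if_pos h, if_pos h]
  · rw [if_neg h, if_neg h]

theorem nsum3 (j : Fin 3) (g : Fin 3 → ℕ) : ∑ i, g i = g j + g (j + 1) + g (j + 2) := by
  rw [Fin.sum_univ_three]
  fin_cases j
  · rfl
  · show g 0 + g 1 + g 2 = g 1 + g 2 + g 0; ring
  · show g 0 + g 1 + g 2 = g 2 + g 0 + g 1; ring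

/-- (c): the count. `A`, `C` are the blacks and whites of a component of `G - M` containing `b0`. -/
theorem count [DecidableEq B] [DecidableEq W] [DecidableEq V] (hS : M.Sph) (b0 : B)
    (f : B → Fin 3)
    (hsurj : ∀ v, (∀ j, M.c j b0 ≠ v) → ∃ b, b ≠ b0 ∧ M.c (f b) b = v)
    (m : B → Fin 3) (hm : ∀ b, b ≠ b0 → m b ≠ f b)
    (hbij : Function.Bijective (fun b => M.e (m b) b)) (A : Finset B) (C : Finset W)
    (hcl : ∀ b i, i ≠ m b → (b ∈ A ↔ M.e i b ∈ C)) (hb0 : b0 ∈ A)
    (hconn : ∀ (al : B → ℚ) (ga : W → ℚ), (∀ b i, b ∈ A → M.e i b ∈ C → al b = ga (M.e i b)) →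
      ∃ t, (∀ b ∈ A, al b = t) ∧ ∀ w ∈ C, ga w = t) :
    (∀ b, b ∈ A) ∧ ∀ w, w ∈ C := by
  classical
  -- whites in `C`
  have hind : ∀ b, (∑ i, if M.e i b ∈ C then 1 else 0) =
      (if M.e (m b) b ∈ C then 1 else 0) + 2 * (if b ∈ A then 1 else 0) := by
    intro b
    rw [nsum3 (m b)]
    have h1 := hcl b (m b + 1) (fne1 _)
    have h2 := hcl b (m b + 2) (fne2 _)
    by_cases hb : b ∈ A
    · rw [if_pos (h1.1 hb), if_pos (h2.1 hb), if_pos hb]
    · rw [if_neg fun h => hb (h1.2 h), if_neg fun h => hb (h2.2 h), if_neg hb]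
  have hbC : (∑ b, if M.e (m b) b ∈ C then 1 else 0) = C.card := by
    have h1 : (∑ b, if M.e (m b) b ∈ C then 1 else 0) = ∑ w, if w ∈ C then 1 else 0 :=
      Fintype.sum_bijective _ hbij _ _ fun b => rfl
    rw [h1, Finset.sum_boole]
    simp
  have hbA : (∑ b, if b ∈ A then 1 else 0) = A.card := by
    rw [Finset.sum_boole]
    simp
  have hC3 : (∑ b, ∑ i, if M.e i b ∈ C then 1 else 0) = 3 * C.card := by
    rw [Finset.sum_comm]
    have h1 : ∀ i : Fin 3, (∑ b, if M.e i b ∈ C then 1 else 0) = C.card := by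
      intro i
      have h1 : (∑ b, if M.e i b ∈ C then 1 else 0) = ∑ w, if w ∈ C then 1 else 0 :=
        Fintype.sum_equiv (M.e i) _ _ fun b => rfl
      rw [h1, Finset.sum_boole]
      simp
    rw [Finset.sum_congr rfl fun i _ => h1 i, Finset.sum_const, Finset.card_univ, Fintype.card_fin,
      smul_eq_mul]
  have hAC : C.card = A.card := by
    rw [Finset.sum_congr rfl fun b _ => hind b, Finset.sum_add_distrib, ← Finset.mul_sum, hbC,
      hbA] at hC3
    omega
  -- the numbers
  let p : ℕ := (univ.filter fun b => b ∈ A ∧ M.e (m b) b ∈ C).card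
  have hE : (univ.filter fun q : B × Fin 3 => q.1 ∈ A ∧ M.e q.2 q.1 ∈ C).card =
      p + 2 * A.card := by
    rw [filter_prod_card (fun b i => b ∈ A ∧ M.e i b ∈ C)]
    have h1 : ∀ b, (∑ i, if b ∈ A ∧ M.e i b ∈ C then 1 else 0) =
        (if b ∈ A ∧ M.e (m b) b ∈ C then 1 else 0) + 2 * (if b ∈ A then 1 else 0) := by
      intro b
      by_cases hb : b ∈ A
      · simp only [hb, true_and, if_true]
        rw [hind b, if_pos hb]
      · simp only [hb, false_and, if_false]
        simp
    rw [Finset.sum_congr rfl fun b _ => h1 b, Finset.sum_add_distrib, ← Finset.mul_sum, hbA,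
      Finset.sum_boole]
    simp [p]
  have hpA : p + (univ.filter fun b => b ∈ A ∧ M.e (m b) b ∉ C).card = A.card := by
    have h1 := Finset.card_filter_add_card_filter_not (s := A) (fun b => M.e (m b) b ∈ C)
    have h2 : (univ.filter fun b => b ∈ A ∧ M.e (m b) b ∈ C) =
        A.filter fun b => M.e (m b) b ∈ C := by
      ext b; simp
    have h3 : (univ.filter fun b => b ∈ A ∧ M.e (m b) b ∉ C) =
        A.filter fun b => ¬ M.e (m b) b ∈ C := by
      ext b; simp
    show (univ.filter fun b => b ∈ A ∧ M.e (m b) b ∈ C).card + _ = _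
    rw [h2, h3, h1]
  have hpC : p + (univ.filter fun b => b ∉ A ∧ M.e (m b) b ∈ C).card = C.card := by
    have h1 : (univ.filter fun b => M.e (m b) b ∈ C).card = C.card := by
      rw [Finset.card_filter, hbC]
    have h2 := Finset.card_filter_add_card_filter_not
      (s := univ.filter fun b => M.e (m b) b ∈ C) (fun b => b ∈ A)
    rw [h1, Finset.filter_filter, Finset.filter_filter] at h2
    have h3 : (univ.filter fun b => M.e (m b) b ∈ C ∧ b ∈ A) =
        univ.filter fun b => b ∈ A ∧ M.e (m b) b ∈ C := by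
      ext b; simp [and_comm]
    have h4 : (univ.filter fun b => M.e (m b) b ∈ C ∧ ¬ b ∈ A) =
        univ.filter fun b => b ∉ A ∧ M.e (m b) b ∈ C := by
      ext b; simp [and_comm]
    rw [h3, h4] at h2
    exact h2
  have hpN : (univ.filter fun b => b ∉ A ∧ M.e (m b) b ∉ C).card + C.card +
      (univ.filter fun b => b ∈ A ∧ M.e (m b) b ∉ C).card = Fintype.card B := by
    have h1 : (univ.filter fun b => M.e (m b) b ∈ C).card = C.card := by
      rw [Finset.card_filter, hbC]
    have h2 := Finset.card_filter_add_card_filter_not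
      (s := (univ : Finset B)) (fun b => M.e (m b) b ∈ C)
    rw [h1, Finset.card_univ] at h2
    have h3 := Finset.card_filter_add_card_filter_not
      (s := univ.filter fun b => ¬ M.e (m b) b ∈ C) (fun b => b ∈ A)
    rw [Finset.filter_filter, Finset.filter_filter] at h3
    have h4 : (univ.filter fun b => ¬ M.e (m b) b ∈ C ∧ b ∈ A) =
        univ.filter fun b => b ∈ A ∧ M.e (m b) b ∉ C := by
      ext b; simp [and_comm]
    have h5 : (univ.filter fun b => ¬ M.e (m b) b ∈ C ∧ ¬ b ∈ A) =
        univ.filter fun b => b ∉ A ∧ M.e (m b) b ∉ C := by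
      ext b; simp [and_comm]
    rw [h4, h5] at h3
    omega
  -- crossing edges
  let cr : B → Fin 3 → Prop := fun b i => ¬ (b ∈ A ↔ M.e i b ∈ C)
  let at' : B → Fin 3 → V → Prop := fun b i v => v = M.c (i + 1) b ∨ v = M.c (i + 2) b
  have hcrm : ∀ b i, cr b i → i = m b := by
    intro b i h
    by_contra hcon
    exact h (hcl b i hcon)
  have hcr : (univ.filter fun q : B × Fin 3 => cr q.1 q.2).card ≤
      (univ.filter fun b => b ∈ A ∧ M.e (m b) b ∉ C).card +
        (univ.filter fun b => b ∉ A ∧ M.e (m b) b ∈ C).card := by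
    refine le_trans ?_ (Finset.card_union_le _ _)
    refine Finset.card_le_card_of_injOn Prod.fst ?_ ?_
    · intro q hq
      have h1 : cr q.1 q.2 := (mem_filter.1 hq).2
      have h2 := hcrm _ _ h1
      rw [h2] at h1
      rw [Finset.mem_coe, mem_union, mem_filter, mem_filter]
      by_cases h3 : q.1 ∈ A
      · left
        refine ⟨mem_univ _, h3, fun h4 => h1 ⟨fun _ => h4, fun _ => h3⟩⟩
      · right
        refine ⟨mem_univ _, h3, ?_⟩
        by_contra h4
        exact h1 ⟨fun h => absurd h h3, fun h => absurd h h4⟩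
    · intro q hq q' hq' h
      have h1 := hcrm _ _ (mem_filter.1 hq).2
      have h2 := hcrm _ _ (mem_filter.1 hq').2
      have h : q.1 = q'.1 := h
      exact Prod.ext h (by rw [h1, h2, h])
  -- parity
  have hpar : ∀ v, Even (univ.filter fun q : B × Fin 3 => cr q.1 q.2 ∧ at' q.1 q.2 v).card := by
    intro v
    rw [← ZMod.natCast_eq_zero_iff_even]
    rw [filter_prod_card (fun b i => cr b i ∧ at' b i v)]
    have h1 := orthZ M (fun v' => if v' = v then 1 else 0) (fun b => if b ∈ A then 1 else 0)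
      (fun w => if w ∈ C then 1 else 0)
    rw [← h1]
    push_cast
    refine Finset.sum_congr rfl fun b _ => Finset.sum_congr rfl fun i _ => ?_
    have h2 : (if cr b i ∧ at' b i v then (1 : ZMod 2) else 0) =
        (if at' b i v then 1 else 0) * (if cr b i then 1 else 0) := by
      by_cases ha : at' b i v <;> by_cases hb : cr b i <;> simp [ha, hb]
    rw [h2]
    congr 1
    · by_cases h3 : M.c (i + 1) b = v
      · have h4 : M.c (i + 2) b ≠ v := by
          intro h4
          exact absurd (M.cls _ _ _ _ (h3.trans h4.symm)) (fne12 i)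
        rw [if_pos h3, if_neg h4, add_zero, if_pos (Or.inl h3.symm)]
      · by_cases h4 : M.c (i + 2) b = v
        · rw [if_neg h3, if_pos h4, zero_add, if_pos (Or.inr h4.symm)]
        · rw [if_neg h3, if_neg h4, add_zero, if_neg]
          rintro (h5 | h5)
          · exact h3 h5.symm
          · exact h4 h5.symm
    · by_cases h3 : b ∈ A
      · by_cases h4 : M.e i b ∈ C
        · rw [if_pos h3, if_pos h4, if_neg]
          · rfl
          · intro h5; exact h5 ⟨fun _ => h4, fun _ => h3⟩
        · rw [if_pos h3, if_neg h4, if_pos]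
          · rfl
          · intro h5; exact h4 (h5.1 h3)
      · by_cases h4 : M.e i b ∈ C
        · rw [if_neg h3, if_pos h4, if_pos]
          · rfl
          · intro h5; exact h3 (h5.2 h4)
        · rw [if_neg h3, if_neg h4, if_neg]
          · rfl
          · intro h5; exact h5 ⟨fun h => absurd h h3, fun h => absurd h h4⟩
  let VD : Finset V := univ.filter fun v => ∃ b i, cr b i ∧ at' b i v
  have hVD : 2 * VD.card ≤ 2 * (univ.filter fun q : B × Fin 3 => cr q.1 q.2).card := by
    have h1 : ∀ v ∈ VD,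
        2 ≤ (univ.filter fun q : B × Fin 3 => cr q.1 q.2 ∧ at' q.1 q.2 v).card := by
      intro v hv
      obtain ⟨b, i, h1, h2⟩ := (mem_filter.1 hv).2
      have h3 : 0 < (univ.filter fun q : B × Fin 3 => cr q.1 q.2 ∧ at' q.1 q.2 v).card :=
        Finset.card_pos.2 ⟨(b, i), mem_filter.2 ⟨mem_univ _, h1, h2⟩⟩
      obtain ⟨k, hk⟩ := hpar v
      omega
    calc 2 * VD.card = ∑ v ∈ VD, 2 := by rw [Finset.sum_const, smul_eq_mul, mul_comm]
      _ ≤ ∑ v ∈ VD, (univ.filter fun q : B × Fin 3 => cr q.1 q.2 ∧ at' q.1 q.2 v).card :=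
        Finset.sum_le_sum h1
      _ ≤ ∑ v, (univ.filter fun q : B × Fin 3 => cr q.1 q.2 ∧ at' q.1 q.2 v).card :=
        Finset.sum_le_sum_of_subset (Finset.subset_univ _)
      _ = ∑ v : V, ∑ q ∈ univ.filter (fun q : B × Fin 3 => cr q.1 q.2),
          if at' q.1 q.2 v then 1 else 0 := by
        refine Finset.sum_congr rfl fun v _ => ?_
        rw [← Finset.filter_filter, Finset.card_filter]
      _ = ∑ q ∈ univ.filter (fun q : B × Fin 3 => cr q.1 q.2), ∑ v : V,
          if at' q.1 q.2 v then 1 else 0 := Finset.sum_comm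
      _ ≤ ∑ q ∈ univ.filter (fun q : B × Fin 3 => cr q.1 q.2), 2 := by
        refine Finset.sum_le_sum fun q _ => ?_
        rw [← Finset.card_filter]
        refine (Finset.card_le_card (t := {M.c (q.2 + 1) q.1, M.c (q.2 + 2) q.1}) ?_).trans
          Finset.card_le_two
        intro v hv
        have h5 := (mem_filter.1 hv).2
        rw [mem_insert, mem_singleton]
        exact h5
      _ = 2 * (univ.filter fun q : B × Fin 3 => cr q.1 q.2).card := by
        rw [Finset.sum_const, smul_eq_mul, mul_comm]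
  -- the faces
  let K : Finset V := univ.filter fun v => v ∉ VD ∧ ∃ b j, M.c j b = v ∧ b ∈ A
  let K' : Finset V := univ.filter fun v => v ∉ VD ∧ ¬ ∃ b j, M.c j b = v ∧ b ∈ A
  have hKK : VD.card + K.card + K'.card = Fintype.card V := by
    have h1 := Finset.card_filter_add_card_filter_not
      (s := (univ : Finset V)) (fun v => v ∈ VD)
    have h2 := Finset.card_filter_add_card_filter_not
      (s := univ.filter fun v => ¬ v ∈ VD) (fun v => ∃ b j, M.c j b = v ∧ b ∈ A)
    rw [Finset.filter_filter, Finset.filter_filter] at h2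
    have h3 : (univ.filter fun v => v ∈ VD) = VD := by ext v; simp
    rw [h3, Finset.card_univ] at h1
    have h4 : K.card + K'.card = (univ.filter fun v => ¬ v ∈ VD).card := h2
    omega
  have hK' : K'.card ≤ (univ.filter fun b => b ∉ A ∧ M.e (m b) b ∉ C).card := by
    have h1 : K' ⊆ (univ.filter fun b => b ∉ A ∧ M.e (m b) b ∉ C).image
        fun b => M.c (f b) b := by
      intro v hv
      obtain ⟨h1, h2⟩ := (mem_filter.1 hv).2
      obtain ⟨b, hb, hbv⟩ := hsurj v (by
        intro j hj
        exact h2 ⟨b0, j, hj, hb0⟩)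
      refine mem_image.2 ⟨b, mem_filter.2 ⟨mem_univ _, ?_, ?_⟩, hbv⟩
      · intro h3; exact h2 ⟨b, f b, hbv, h3⟩
      · intro h3
        apply h1
        refine mem_filter.2 ⟨mem_univ _, b, m b, ?_, ?_⟩
        · intro h4
          exact h2 ⟨b, f b, hbv, h4.2 h3⟩
        · rcases fcase (f b) (m b) with h4 | h4 | h4
          · exact absurd h4.symm (hm b hb)
          · left; rw [← h4, hbv]
          · right; rw [← h4, hbv]
    exact (Finset.card_le_card h1).trans Finset.card_image_le
  -- faces of `K` are inside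
  have hncr : ∀ b i j, j ≠ i → M.c j b ∉ VD → (b ∈ A ↔ M.e i b ∈ C) := by
    intro b i j hj hv
    by_contra hcon
    apply hv
    refine mem_filter.2 ⟨mem_univ _, b, i, hcon, ?_⟩
    rcases fcase j i with h4 | h4 | h4
    · exact absurd h4 hj
    · left; rw [h4]
    · right; rw [h4]
  have hKE : ∀ b i j, j ≠ i → M.c j b ∈ K → b ∈ A ∧ M.e i b ∈ C := by
    intro b i j hj hv
    obtain ⟨h1, b1, j1, h2, h3⟩ := (mem_filter.1 hv).2
    have h4 : j1 = j := M.cls _ _ _ _ h2
    subst h4
    obtain ⟨n, hn⟩ := (M.same_iff j1 b1 b).1 h2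
    have h5 : ∀ n : ℕ, (M.rho j1 ^ n) b1 ∈ A := by
      intro n
      induction n with
      | zero => exact h3
      | succ n ih =>
        have h6 : M.c j1 ((M.rho j1 ^ n) b1) ∉ VD := by rw [M.c_rho_pow, h2]; exact h1
        have h7 : M.c j1 ((M.rho j1 ^ (n + 1)) b1) ∉ VD := by rw [M.c_rho_pow, h2]; exact h1
        have h8 := hncr _ (j1 + 2) j1 (fne2 _).symm h6
        have h9 := hncr _ (j1 + 1) j1 (fne1 _).symm h7
        rw [h9, pow_succ', Equiv.Perm.mul_apply, M.e_rho]
        exact h8.1 ih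
    have h6 : b ∈ A := by rw [← hn]; exact h5 n
    exact ⟨h6, (hncr b i j1 hj h1).1 h6⟩
  by_cases hKu : K = univ
  · constructor
    · intro b
      exact (hKE b 0 1 (by decide) (by rw [hKu]; exact mem_univ _)).1
    · intro w
      have := (hKE ((M.e 0).symm w) 0 1 (by decide) (by rw [hKu]; exact mem_univ _)).2
      rwa [Equiv.apply_symm_apply] at this
  · exfalso
    have h1 := FB M hS.conn A C (Or.inl ⟨b0, hb0⟩) hconn K hKu hKE
    rw [hE] at h1
    have h2 := hS.card
    omega

/-- the edges not in the matching -/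
def NE (m : B → Fin 3) (x y : B ⊕ W) : Prop :=
  ∃ i b, i ≠ m b ∧ x = Sum.inl b ∧ y = Sum.inr (M.e i b)

/-- STEP 1 -/
theorem step1 (hS : M.Sph) (b0 : B) (f : B → Fin 3)
    (hinj : ∀ b b', b ≠ b0 → b' ≠ b0 → M.c (f b) b = M.c (f b') b' → b = b')
    (havoid : ∀ b, b ≠ b0 → ∀ j, M.c (f b) b ≠ M.c j b0)
    (hgood : ∀ U : Finset V, (∀ v ∈ U, ∀ j, M.c j b0 ≠ v) →
      (∀ b, b ≠ b0 → (M.c (f b + 1) b ∈ U ↔ M.c (f b + 2) b ∈ U)) → U = ∅) (c0 : Fin 3) :
    ∃ m : B → Fin 3, m b0 = c0 ∧ (∀ b, b ≠ b0 → m b ≠ f b) ∧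
      Function.Bijective (fun b => M.e (m b) b) ∧
      ∀ x y : B ⊕ W, Relation.EqvGen
        (fun x y => ∃ i b, i ≠ m b ∧ x = Sum.inl b ∧ y = Sum.inr (M.e i b)) x y := by
  classical
  obtain ⟨m, hm0, hm, hbij⟩ := exists_pm M hS b0 f hinj havoid hgood c0
  refine ⟨m, hm0, hm, hbij, ?_⟩
  have hsurj := surj_of_inj M hS b0 f hinj havoid
  let P : B ⊕ W → Prop := fun x => Relation.EqvGen (NE M m) (Sum.inl b0) x
  have hcl : ∀ b i, i ≠ m b → (P (Sum.inl b) ↔ P (Sum.inr (M.e i b))) := by
    intro b i hi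
    have h1 : Relation.EqvGen (NE M m) (Sum.inl b) (Sum.inr (M.e i b)) :=
      Relation.EqvGen.rel _ _ ⟨i, b, hi, rfl, rfl⟩
    exact ⟨fun h => h.trans _ _ _ h1, fun h => h.trans _ _ _ (h1.symm _ _)⟩
  have key := count M hS b0 f hsurj m hm hbij (univ.filter fun b => P (Sum.inl b))
    (univ.filter fun w => P (Sum.inr w)) (by
      intro b i hi
      simp only [mem_filter, mem_univ, true_and]
      exact hcl b i hi) (mem_filter.2 ⟨mem_univ _, Relation.EqvGen.refl _⟩) (by
      intro al ga h
      have h1 : ∀ x y : B ⊕ W, Relation.EqvGen (NE M m) x y → P x →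
          Sum.elim al ga x = Sum.elim al ga y := by
        intro x y hxy
        induction hxy with
        | rel x y hxy =>
          obtain ⟨i, b, hi, rfl, rfl⟩ := hxy
          intro hP
          exact h b i (mem_filter.2 ⟨mem_univ _, hP⟩)
            (mem_filter.2 ⟨mem_univ _, (hcl b i hi).1 hP⟩)
        | refl x => intro _; rfl
        | symm x y hxy ih =>
          intro hP
          exact (ih (Relation.EqvGen.trans _ _ _ hP (hxy.symm _ _))).symm
        | trans x y z hxy hyz ih1 ih2 =>
          intro hP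
          exact (ih1 hP).trans (ih2 (Relation.EqvGen.trans _ _ _ hP hxy))
      refine ⟨al b0, ?_, ?_⟩
      · intro b hb
        have hb := (mem_filter.1 hb).2
        exact (h1 _ _ hb (Relation.EqvGen.refl _)).symm
      · intro w hw
        have hw := (mem_filter.1 hw).2
        exact (h1 _ _ hw (Relation.EqvGen.refl _)).symm)
  have hall : ∀ x, P x := by
    intro x
    rcases x with b | w
    · exact (mem_filter.1 (key.1 b)).2
    · exact (mem_filter.1 (key.2 w)).2
  intro x y
  exact Relation.EqvGen.trans _ _ _ ((hall x).symm _ _) (hall y)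

end c

end Vale.Agent.P039.Bt.H454
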